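import Mathlib

/-!
# P225, assembly: a permutation with one cycle on a given set, and weighted selections
-/

namespace Vale.Agent.P225.Main


/-- Every finite set carries a permutation with a single cycle through it. -/
theorem exists_cycle {α : Type*} [Fintype α] [DecidableEq α] (s : Finset α) :
    ∃ σ : Equiv.Perm α, ∀ a ∈ s, (σ ^ s.card) a = a ∧
      ∀ f : α → ℝ, ∑ e ∈ Finset.range s.card, f ((σ ^ e) a) = ∑ b ∈ s, f b := by
  rcases Nat.eq_zero_or_pos s.card with h | h
  · exact ⟨1, fun a ha => by simp [Finset.card_eq_zero.1 h] at ha⟩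
  have : NeZero s.card := ⟨h.ne'⟩
  let eqv : {x // x ∈ s} ≃ Fin s.card := s.equivFin
  let r : Equiv.Perm {x // x ∈ s} := eqv.symm.permCongr (finRotate s.card)
  refine ⟨Equiv.Perm.ofSubtype r, fun a ha => ?_⟩
  have hr : ∀ (e : ℕ), ((Equiv.Perm.ofSubtype r) ^ e) a =
      (eqv.symm (eqv ⟨a, ha⟩ + Fin.ofNat s.card e) : α) := by
    intro e
    induction e with
    | zero => simp
    | succ e ih =>
      rw [pow_succ', Equiv.Perm.mul_apply, ih, Equiv.Perm.ofSubtype_apply_coe]
      simp only [r, Equiv.permCongr_apply, Equiv.symm_symm, Equiv.apply_symm_apply,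
        finRotate_apply, add_assoc]
      congr 3
      apply Fin.ext
      simp [Fin.val_add, Nat.add_mod]
  refine ⟨?_, fun f => ?_⟩
  · rw [hr]
    have : Fin.ofNat s.card s.card = (0 : Fin s.card) := by
      apply Fin.ext
      simp
    simp
  · rw [← Finset.sum_coe_sort s f]
    simp only [hr]
    rw [← Fin.sum_univ_eq_sum_range
      (fun e => f (eqv.symm (eqv ⟨a, ha⟩ + Fin.ofNat s.card e) : α))]
    refine Fintype.sum_equiv ((Equiv.addLeft (eqv ⟨a, ha⟩)).trans eqv.symm) _ _ fun e => ?_
    simp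

/-- Selecting prescribed numbers of elements in the fibres of `q`. -/
theorem exists_selection {α : Type*} [Fintype α] [DecidableEq α] (q : α → ℕ) (l Z : ℕ)
    (w : ℕ → ℕ)
    (h : ∀ r, ∑ a ∈ (Finset.range (l + 1)).filter (fun a => Nat.dist (2 * a) l = r), w a ≤
      (Finset.univ.filter fun i => q i = r).card) :
    ∃ s : Finset α,
      s.card = ∑ a ∈ (Finset.range (l + 1)).filter (fun a => Z ≤ Nat.dist (2 * a) l), w a ∧
      ∀ g : ℕ → ℝ, ∑ i ∈ s, g (q i) =
        ∑ a ∈ (Finset.range (l + 1)).filter (fun a => Z ≤ Nat.dist (2 * a) l),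
          (w a : ℝ) * g (Nat.dist (2 * a) l) := by
  choose t hts htc using fun r => Finset.exists_subset_card_eq (h r)
  let F := (Finset.range (l + 1)).filter (fun a => Z ≤ Nat.dist (2 * a) l)
  let R := F.image (fun a => Nat.dist (2 * a) l)
  have hdisj : Set.PairwiseDisjoint (R : Set ℕ) t := by
    intro r _ r' _ hne
    rw [Function.onFun, Finset.disjoint_left]
    intro x hx hx'
    exact hne ((Finset.mem_filter.1 (hts r hx)).2.symm.trans (Finset.mem_filter.1 (hts r' hx')).2)
  have hfib : ∀ r ∈ R, F.filter (fun a => Nat.dist (2 * a) l = r) =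
      (Finset.range (l + 1)).filter (fun a => Nat.dist (2 * a) l = r) := by
    intro r hr
    obtain ⟨a₀, ha₀, rfl⟩ := Finset.mem_image.1 hr
    ext a
    simp only [F, Finset.mem_filter]
    constructor
    · exact fun h => ⟨h.1.1, h.2⟩
    · exact fun h => ⟨⟨h.1, by rw [h.2]; exact (Finset.mem_filter.1 ha₀).2⟩, h.2⟩
  refine ⟨R.biUnion t, ?_, fun g => ?_⟩
  · rw [Finset.card_biUnion hdisj]
    refine Eq.trans ?_ (Finset.sum_fiberwise_of_maps_to
      (g := fun a => Nat.dist (2 * a) l) (t := R) (fun a ha => Finset.mem_image_of_mem _ ha) w)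
    exact Finset.sum_congr rfl fun r hr => by rw [htc, hfib r hr]
  · rw [Finset.sum_biUnion hdisj]
    refine Eq.trans ?_ (Finset.sum_fiberwise_of_maps_to
      (g := fun a => Nat.dist (2 * a) l) (t := R) (fun a ha => Finset.mem_image_of_mem _ ha)
      (fun a => (w a : ℝ) * g (Nat.dist (2 * a) l)))
    refine Finset.sum_congr rfl fun r hr => ?_
    rw [Finset.sum_congr rfl fun i hi => congrArg g (Finset.mem_filter.1 (hts r hi)).2,
      Finset.sum_const, htc, nsmul_eq_mul, Nat.cast_sum, Finset.sum_mul, hfib r hr]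
    exact Finset.sum_congr rfl fun a ha => by rw [(Finset.mem_filter.1 ha).2]

end Vale.Agent.P225.Main
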