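import Vale.Agent.P225.Interfaces
import Vale.Agent.P225.Poly.Rot
import Vale.Agent.P225.Profile.Rho
import Vale.Agent.P225.Main.Cycle

/-!
# P225, assembly: the seven modules give the disproof
-/

namespace Vale.Agent.P225

open scoped ContDiff
open Filter Topology

noncomputable section

namespace Main

/-- The combination of the basis with the coefficients `z`. -/
def comb {n d : ℕ} (b : Fin d → Poly n) (z : Fin d → ℝ) : Poly n := ∑ a, z a • b a

theorem comb_mulVec {n d : ℕ} {b : Fin d → Poly n} {U : Matrix (Fin n) (Fin n) ℝ}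
    {R : Matrix (Fin d) (Fin d) ℝ} (h : IsRotMatrix b U R) (z : Fin d → ℝ) :
    comb b (R.mulVec z) = rot U (comb b z) := by
  simp only [comb, Matrix.mulVec, dotProduct, rot_sum, rot_smul, Finset.sum_smul]
  rw [Finset.sum_comm]
  refine Finset.sum_congr rfl fun a' _ => ?_
  rw [h a', Finset.smul_sum]
  exact Finset.sum_congr rfl fun a _ => by rw [smul_smul, mul_comm]

theorem xi_sq_comb {p l d : ℕ} {b : Fin d → Poly (amb p)} {q : Fin d → ℕ}
    (h : IsEigBasis p l b q) (z : Fin d → ℝ) :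
    xi (J0 p) (xi (J0 p) (comb b z)) = ∑ a, (-((q a : ℝ) ^ 2) * z a) • b a := by
  simp only [comb, xi_eq_vf, map_sum, map_smul]
  refine Finset.sum_congr rfl fun a _ => ?_
  rw [← xi_eq_vf, ← xi_eq_vf, h.2.2.2.2 a, smul_smul, mul_comm]

/-- The radial operator of an excursion in a rotated basis. -/
theorem comb_conj {p l d : ℕ} {b : Fin d → Poly (amb p)} {q : Fin d → ℕ}
    (hb : IsEigBasis p l b q) {V : Matrix (Fin (amb p)) (Fin (amb p)) ℝ} (hV : IsOrth V)
    {R Ri : Matrix (Fin d) (Fin d) ℝ} (hR : IsRotMatrix b V R) (hRi : R * Ri = 1) (c e : ℝ)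
    (y : Fin d → ℝ) :
    comb b ((R * Matrix.diagonal (fun a => c + e * (q a : ℝ) ^ 2) * Ri).mulVec y) =
      c • comb b y - e • xi (Jof V) (xi (Jof V) (comb b y)) := by
  set z := Ri.mulVec y with hz
  have hy : comb b y = rot V (comb b z) := by
    rw [← comb_mulVec hR, hz, Matrix.mulVec_mulVec, hRi, Matrix.one_mulVec]
  rw [← Matrix.mulVec_mulVec, ← Matrix.mulVec_mulVec, comb_mulVec hR, ← hz, hy,
    xi_Jof_rot hV, xi_Jof_rot hV, xi_sq_comb hb]
  rw [← rot_smul, ← rot_smul, sub_eq_add_neg, ← neg_one_smul ℝ (rot V (e • _)), ← rot_smul,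
    ← rot_add]
  congr 1
  simp only [comb, Matrix.mulVec_diagonal, Finset.smul_sum, smul_smul, ← Finset.sum_add_distrib,
    ← add_smul]
  refine Finset.sum_congr rfl fun a _ => ?_
  congr 1
  ring

/-- The structure during the motion. -/
def Vof {n M : ℕ} (U : Fin M → Matrix (Fin n) (Fin n) ℝ) (sg : Option (Fin M)) :
    Matrix (Fin n) (Fin n) ℝ :=
  match sg with
  | none => 1
  | some k => U k

theorem isOrth_one (n : ℕ) : IsOrth (1 : Matrix (Fin n) (Fin n) ℝ) := by simp [IsOrth]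

theorem isOrth_Vof {n M : ℕ} {U : Fin M → Matrix (Fin n) (Fin n) ℝ} (hU : ∀ k, IsOrth (U k))
    (sg : Option (Fin M)) : IsOrth (Vof U sg) := by
  cases sg with
  | none => exact isOrth_one n
  | some k => exact hU k

theorem pot_split (ρ θ : ℝ → ℝ) (l q : ℕ) (s : ℝ) (hρ : 0 < ρ s) :
    pot ρ θ l q s = (l : ℝ) * ((l : ℝ) + 2 * (p₀ : ℝ)) / profB ρ θ s ^ 2 +
      (1 / profA ρ θ s ^ 2 - 1 / profB ρ θ s ^ 2) * (q : ℝ) ^ 2 := by
  have h1 : ρ s ≠ 0 := hρ.ne'
  have e1 : 1 / profA ρ θ s ^ 2 =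
      Real.exp (2 * θ s) * Real.exp (-(2 * (2 * (p₀ : ℝ) + 1)) * θ s) / ρ s ^ 2 := by
    rw [profA, ← Real.exp_add, mul_pow, ← Real.exp_nat_mul]
    rw [div_eq_div_iff (by positivity) (by positivity)]
    rw [one_mul, mul_comm (ρ s ^ 2), ← mul_assoc, ← Real.exp_add]
    have : 2 * θ s + -(2 * (2 * (p₀ : ℝ) + 1)) * θ s + ((2 : ℕ) : ℝ) * (2 * (p₀ : ℝ) * θ s) = 0 := by
      push_cast; ring
    rw [this, Real.exp_zero, one_mul]
  have e2 : 1 / profB ρ θ s ^ 2 = Real.exp (2 * θ s) / ρ s ^ 2 := by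
    rw [profB, mul_pow, ← Real.exp_nat_mul]
    rw [div_eq_div_iff (by positivity) (by positivity)]
    rw [one_mul, mul_comm (ρ s ^ 2), ← mul_assoc, ← Real.exp_add]
    have : 2 * θ s + ((2 : ℕ) : ℝ) * -θ s = 0 := by push_cast; ring
    rw [this, Real.exp_zero, one_mul]
  rw [pot, lam, div_eq_mul_one_div ((l : ℝ) * _), e1, e2]
  field_simp

theorem drift_eq {ρ θ : ℝ → ℝ} {s : ℝ} (hρ : DifferentiableAt ℝ ρ s)
    (hθ : DifferentiableAt ℝ θ s) (h0 : 0 < ρ s) :
    2 * (p₀ : ℝ) + deriv (profA ρ θ) s / profA ρ θ s +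
      2 * (p₀ : ℝ) * (deriv (profB ρ θ) s / profB ρ θ s) = drift ρ s := by
  have hA : HasDerivAt (profA ρ θ)
      (deriv ρ s * Real.exp (2 * p₀ * θ s) +
        ρ s * (Real.exp (2 * p₀ * θ s) * (2 * p₀ * deriv θ s))) s :=
    hρ.hasDerivAt.mul ((hθ.hasDerivAt.const_mul (2 * (p₀ : ℝ))).exp)
  have hB : HasDerivAt (profB ρ θ)
      (deriv ρ s * Real.exp (-θ s) + ρ s * (Real.exp (-θ s) * (-deriv θ s))) s :=
    hρ.hasDerivAt.mul (hθ.hasDerivAt.neg.exp)
  rw [hA.deriv, hB.deriv, drift, profA, profB]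
  have h1 := h0.ne'
  field_simp
  ring

theorem mean_dwellExp_lt {α : Type*} (s : Finset α) (l : ℕ) (q : α → ℕ) (k : ℕ)
    (hq : ∀ a ∈ s, q a ≤ l)
    (h : ∑ a ∈ s, dwellPot l (q a) < s.card * ((k : ℝ) ^ 2 + 2 * p₀ * k)) :
    ∑ a ∈ s, dwellExp l (q a) < (k : ℝ) * s.card := by
  have hp : (0 : ℝ) < p₀ := by norm_num [p₀]
  have hk : (0 : ℝ) < (k : ℝ) + p₀ := by positivity
  have hr := r2Inf_pos
  have key : ∀ a ∈ s, dwellExp l (q a) ≤
      ((p₀ : ℝ) ^ 2 + dwellPot l (q a) + ((k : ℝ) + p₀) ^ 2) / (2 * ((k : ℝ) + p₀)) - p₀ := by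
    intro a ha
    have hq' : (q a : ℝ) ≤ l := Nat.cast_le.2 (hq a ha)
    have hpot : 0 ≤ dwellPot l (q a) := by
      unfold dwellPot lam
      apply div_nonneg _ hr.le
      nlinarith [mul_nonneg (Nat.cast_nonneg (α := ℝ) l) hp.le, mul_self_le_mul_self
        (Nat.cast_nonneg (q a)) hq']
    unfold dwellExp
    rw [sub_le_sub_iff_right, le_div_iff₀ (by positivity)]
    nlinarith [sq_nonneg (√((p₀ : ℝ) ^ 2 + dwellPot l (q a)) - ((k : ℝ) + p₀)),
      Real.sq_sqrt (show 0 ≤ (p₀ : ℝ) ^ 2 + dwellPot l (q a) by positivity)]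
  refine (Finset.sum_le_sum key).trans_lt ?_
  rw [Finset.sum_sub_distrib, ← Finset.sum_div, Finset.sum_add_distrib, Finset.sum_add_distrib,
    Finset.sum_const, Finset.sum_const, Finset.sum_const, nsmul_eq_mul, nsmul_eq_mul, nsmul_eq_mul,
    sub_lt_iff_lt_add, div_lt_iff₀ (by positivity)]
  nlinarith

theorem eq_zero_of_eval_ball {n : ℕ} (P : Poly n)
    (h : ∀ x : Euc n, ‖x‖ ≤ 1 → MvPolynomial.eval (fun i => x i) P = 0) : P = 0 := by
  refine MvPolynomial.funext_set (fun _ => Set.Icc (0 : ℝ) (1 / (n + 1)))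
    (fun _ => Set.Icc_infinite (by positivity)) fun x hx => ?_
  rw [map_zero]
  refine h (WithLp.toLp 2 x) ?_
  rw [EuclideanSpace.norm_eq]
  refine Real.sqrt_le_one.2 ?_
  calc ∑ i, ‖x i‖ ^ 2 ≤ ∑ _i : Fin n, (1 : ℝ) / (n + 1) := by
        refine Finset.sum_le_sum fun i _ => ?_
        have hi : x i ∈ Set.Icc (0 : ℝ) (1 / (n + 1)) := hx i (Set.mem_univ i)
        have h1 : (1 : ℝ) / (n + 1) ≤ 1 := by
          rw [div_le_one (by positivity)]
          have := Nat.cast_nonneg (α := ℝ) n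
          linarith
        rw [Real.norm_eq_abs, sq_abs]
        nlinarith [hi.1, hi.2]
    _ ≤ 1 := by
        rw [Finset.sum_const, Finset.card_univ, Fintype.card_fin, nsmul_eq_mul,
          mul_one_div, div_le_one (by positivity)]
        linarith

theorem linearIndependent_levels {n L : ℕ} {l : Fin L → ℕ} (hl : Function.Injective l)
    {d : Fin L → ℕ} {b : (i : Fin L) → Fin (d i) → Poly n}
    (hb : ∀ i, LinearIndependent ℝ (b i)) (hh : ∀ i a, (b i a).IsHomogeneous (l i)) :
    LinearIndependent ℝ (fun x : (i : Fin L) × Fin (d i) => b x.1 x.2) := by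
  rw [Fintype.linearIndependent_iff]
  intro g hg
  rintro ⟨i, a⟩
  refine Fintype.linearIndependent_iff.1 (hb i) (fun a => g ⟨i, a⟩) ?_ a
  have h := congrArg (MvPolynomial.homogeneousComponent (l i)) hg
  rw [map_zero, map_sum, Fintype.sum_sigma] at h
  rw [Finset.sum_eq_single_of_mem i (Finset.mem_univ i)] at h
  · refine Eq.trans (Finset.sum_congr rfl fun a _ => ?_) h
    rw [map_smul, MvPolynomial.homogeneousComponent_of_mem
      ((MvPolynomial.mem_homogeneousSubmodule _ _).2 (hh i a)), if_pos rfl]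
  · intro j _ hj
    refine Finset.sum_eq_zero fun a _ => ?_
    rw [map_smul, MvPolynomial.homogeneousComponent_of_mem
      ((MvPolynomial.mem_homogeneousSubmodule _ _).2 (hh j a)),
      if_neg (fun e => hj (hl e).symm), smul_zero]

end Main

open Main

/-- The seven modules give the disproof, in dimension `amb p₀ = 30`. -/
theorem yau30_of_stmts (hG : GeomStmt) (hL : LaplaceStmt) (hP : PolyStmt) (hGen : GenStmt)
    (hPr : ProfileStmt) (hA : AnalysisStmt) (hC : CountStmt) :
    ∃ k : ℕ, 1 ≤ k ∧ ∃ g : Field (amb p₀),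
      IsMetric g ∧ IsComplete' g ∧ RicciNonneg g ∧
      ∃ U : Fin (flatCount (amb p₀) k + 1) → Euc (amb p₀) → ℝ,
        LinearIndependent ℝ U ∧ ∀ i, InGrowthClass g k (U i) := by
  classical
  obtain ⟨k, hk, S, Z, hS, hcount⟩ := hC
  let l : Fin S.card → ℕ := fun i => (S.equivFin.symm i : ℕ)
  have hlS : ∀ i, l i ∈ S := fun i => (S.equivFin.symm i).2
  have hl : Function.Injective l := fun i j h => S.equivFin.symm.injective (Subtype.ext h)
  have hp : 1 ≤ p₀ := by norm_num [p₀]
  obtain ⟨hP1, -, -⟩ := hP p₀ hp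
  choose d b q hb hmult using fun i => hP1 (l i)
  choose sel hsel_card hsel_sum using fun i =>
    exists_selection (q i) (l i) (Z (l i)) (fun a => biDim p₀ a (l i - a)) (hmult i)
  choose σ hσ using fun i => exists_cycle (sel i)
  have hρ0 : 0 < rhoInf := rhoInf_pos
  let den : ℕ → ℝ := fun L => rhoInf ^ 2 * √((p₀ : ℝ) ^ 2 + lam L / rhoInf ^ 2)
  have hlam : ∀ L, 0 ≤ lam L := fun L => by unfold lam; positivity
  have hden : ∀ L, 0 < den L := fun L => by
    have := hlam L
    have : (0 : ℝ) < p₀ := by norm_num [p₀]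
    positivity
  obtain ⟨M, U, R, Ri, τ₀, γ₀, ε, hU, hR, hRR, hε, hword, D, hD, hDs⟩ :=
    hGen p₀ S.card l d b q (fun i => (2 * (p₀ : ℝ) + 1) / den (l i))
      (fun i => lam (l i) / den (l i)) σ (by norm_num [p₀]) hl (fun i => (hS _ (hlS i)).1) hb
      (fun i => div_pos (by positivity) (hden _)) (by
        intro i j hij
        refine div_lt_div_of_pos_left (by positivity) (hden _) ?_
        have h1 : lam (l i) < lam (l j) := by
          have : (l i : ℝ) < l j := Nat.cast_lt.2 hij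
          have h0 := Nat.cast_nonneg (α := ℝ) (l i)
          unfold lam
          nlinarith [Nat.cast_nonneg (α := ℝ) p₀]
        have h3 := hlam (l i)
        show rhoInf ^ 2 * _ < rhoInf ^ 2 * _
        refine mul_lt_mul_of_pos_left (Real.sqrt_lt_sqrt (by positivity) ?_) (by positivity)
        have : lam (l i) / rhoInf ^ 2 < lam (l j) / rhoInf ^ 2 :=
          div_lt_div_of_pos_right h1 (by positivity)
        linarith)
  have hgen : (fun i a => lam (l i) / den (l i) - (2 * (p₀ : ℝ) + 1) / den (l i) * (q i a : ℝ) ^ 2) =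
      fun i a => genY (l i) (q i a) := by
    funext i a
    simp only [genY, den]
    ring
  rw [hgen] at hword hD
  obtain ⟨κ, hκ, hProf⟩ := hPr
  obtain ⟨T, hT⟩ := hA κ S.card M l d q R Ri σ ε τ₀ γ₀ D hκ
    (fun i => le_trans (by norm_num) (hS _ (hlS i)).1) (fun i a => (hb i).2.2.2.1 a) hRR hε
    hword hD hDs
  obtain ⟨j₀, ⟨τ, hτ, hY⟩, hprof⟩ := (hT.and (hProf M T)).exists
  obtain ⟨hρs, hθs, hzero, hbd, hsw, hric⟩ := hprof τ hτ
  set ρ := rho κ j₀
  set θ := theta M j₀ τ
  let V : ℝ → Matrix (Fin (amb p₀)) (Fin (amb p₀)) ℝ := fun s => Vof U (segment M j₀ s)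
  have hV : ∀ s, IsOrth (V s) := fun s => isOrth_Vof hU _
  let J : ℝ → Matrix (Fin (amb p₀)) (Fin (amb p₀)) ℝ := fun s => Jof (V s)
  let A := profA ρ θ
  let B := profB ρ θ
  have hρpos : ∀ s, 0 < ρ s := fun s => hρ0.trans_le (hbd s).1
  let c : ℝ := rhoInf * Real.exp (-(2 * (p₀ : ℝ)))
  have hc : 0 < c := by positivity
  have hexp : ∀ s (u : ℝ), |u| ≤ 2 * (p₀ : ℝ) →
      c ≤ ρ s * Real.exp u ∧ ρ s * Real.exp u ≤ 1 / c := by
    intro s u hu
    obtain ⟨hu1, hu2⟩ := abs_le.1 hu
    constructor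
    · exact mul_le_mul (hbd s).1 (Real.exp_le_exp.2 hu1) (Real.exp_pos _).le (hρpos s).le
    · have h1 : ρ s * Real.exp u ≤ 1 * Real.exp (2 * (p₀ : ℝ)) :=
        mul_le_mul (hbd s).2.1 (Real.exp_le_exp.2 hu2) (Real.exp_pos _).le zero_le_one
      refine h1.trans ?_
      rw [le_div_iff₀ hc]
      calc 1 * Real.exp (2 * (p₀ : ℝ)) * c
          = rhoInf * (Real.exp (2 * (p₀ : ℝ)) * Real.exp (-(2 * (p₀ : ℝ)))) := by
            simp only [c]; ring
        _ = rhoInf := by rw [← Real.exp_add, add_neg_cancel, Real.exp_zero, mul_one]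
        _ ≤ 1 := (hbd s).1.trans (hbd s).2.1
  have hprofile : IsProfile J A B c := by
    refine ⟨hρs.mul ((contDiff_const.mul hθs).exp), hρs.mul (hθs.neg.exp),
      fun s => isCx_Jof (hV s), fun s => ?_, fun s hs => ?_, hc, fun s => ?_⟩
    · rcases hsw s with h | h
      · exact Or.inl (h.mono fun t ht => by simp only [J, V, ht])
      · exact Or.inr (h.mono fun t ht => by
          simp only [A, B, profA, profB]
          rw [show θ t = 0 from ht]
          simp)
    · obtain ⟨h1, h2⟩ := hzero s hs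
      simp [A, B, profA, profB, h1, h2]
    · have hθ1 := (hbd s).2.2
      have hA1 : |2 * (p₀ : ℝ) * θ s| ≤ 2 * (p₀ : ℝ) := by
        rw [abs_mul, abs_of_nonneg (by positivity : (0 : ℝ) ≤ 2 * p₀)]
        exact mul_le_of_le_one_right (by positivity) hθ1
      have hB1 : |(-θ s)| ≤ 2 * (p₀ : ℝ) := by
        rw [abs_neg]
        exact hθ1.trans (by norm_num [p₀])
      exact ⟨(hexp s _ hA1).1, (hexp s _ hA1).2, (hexp s _ hB1).1, (hexp s _ hB1).2⟩
  obtain ⟨hmet, hcomp, hdist, hricci⟩ := hG p₀ J A B c hp hprofile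
  set g := gOf J A B
  -- one harmonic function for each selected basis vector
  have main : ∀ i, ∀ a ∈ sel i, ∃ u : Euc (amb p₀) → ℝ, InGrowthClass g k u ∧
      ∀ x : Euc (amb p₀), ‖x‖ ≤ 1 → u x = MvPolynomial.eval (fun j => x j) (b i a) := by
    intro i a ha
    obtain ⟨Y, hYs, hY0, hode, hgrow⟩ := hY i a
    obtain ⟨u, hu, hharm, hin, C, hout⟩ := hL p₀ J A B c (l i) (d i) (b i) Y (Pi.single a 1) hp
      hprofile (hb i).2.1 hYs (fun s hs => hY0 s hs) (by
        intro s
        have hde := hode s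
        have hdr := drift_eq (hρs.differentiable (by simp) s) (hθs.differentiable (by simp) s)
          (hρpos s)
        change ∑ a', (deriv (deriv Y) s a' + (2 * (p₀ : ℝ) + deriv (profA ρ θ) s / profA ρ θ s +
          2 * (p₀ : ℝ) * (deriv (profB ρ θ) s / profB ρ θ s)) * deriv Y s a') • b i a' = _
        rw [hdr]
        have hlhs : comb (b i) (deriv (deriv Y) s + drift ρ s • deriv Y s) =
            ∑ a', (deriv (deriv Y) s a' + drift ρ s * deriv Y s a') • b i a' := by
          simp [comb]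
        rw [← hlhs, hde]
        change comb (b i) _ = ((l i : ℝ) * ((l i : ℝ) + 2 * p₀) / B s ^ 2) • comb (b i) (Y s) -
          (1 / A s ^ 2 - 1 / B s ^ 2) •
            xi (Jof (Vof U (segment M j₀ s))) (xi (Jof (Vof U (segment M j₀ s))) (comb (b i) (Y s)))
        have hpot : (fun a' => pot ρ θ (l i) (q i a') s) = fun a' =>
            (l i : ℝ) * ((l i : ℝ) + 2 * p₀) / B s ^ 2 +
              (1 / A s ^ 2 - 1 / B s ^ 2) * (q i a' : ℝ) ^ 2 :=
          funext fun a' => pot_split ρ θ (l i) (q i a') s (hρpos s)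
        unfold potMat
        cases hsg : segment M j₀ s with
        | none =>
          simp only [hpot, Vof]
          have h1 : IsRotMatrix (b i) 1 (1 : Matrix (Fin (d i)) (Fin (d i)) ℝ) := fun a' => by
            simp [rot_one, Matrix.one_apply]
          have := comb_conj (hb i) (isOrth_one _) h1 (one_mul 1)
            ((l i : ℝ) * ((l i : ℝ) + 2 * p₀) / B s ^ 2) (1 / A s ^ 2 - 1 / B s ^ 2) (Y s)
          rwa [one_mul, mul_one] at this
        | some m =>
          simp only [hpot, Vof]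
          exact comb_conj (hb i) (hU m) (hR m i) (hRR m i).1 _ _ (Y s))
    have hmean : ∑ e ∈ Finset.range (sel i).card, dwellExp (l i) (q i ((σ i ^ e) a)) <
        (k : ℝ) * (sel i).card := by
      rw [(hσ i a ha).2 fun a' => dwellExp (l i) (q i a')]
      refine mean_dwellExp_lt _ (l i) (q i) k (fun a' _ => (hb i).2.2.2.1 a') ?_
      rw [hsel_sum i (fun r => dwellPot (l i) r), hsel_card i, Nat.cast_sum]
      exact (hS _ (hlS i)).2
    obtain ⟨C₁, hC₁⟩ := hgrow k (sel i).card (Finset.card_pos.2 ⟨a, ha⟩) (hσ i a ha).1 hmean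
    refine ⟨u, ⟨hu, hharm, ?_⟩, fun x hx => ?_⟩
    · obtain ⟨C₀, hC₀⟩ :=
        (isCompact_closedBall (0 : Euc (amb p₀)) 1).exists_bound_of_continuousOn hu.continuous.continuousOn
      refine ⟨max (max C₀ (max C 0 * max C₁ 0 * (1 / c) ^ k)) 0, fun x => ?_⟩
      have hd0 : 0 ≤ dist' g 0 x := le_trans (by positivity) (hdist x)
      rcases le_or_gt ‖x‖ 1 with hx | hx
      · have h1 := hC₀ x (by simpa [Metric.mem_closedBall, dist_zero_right] using hx)
        rw [Real.norm_eq_abs] at h1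
        have h4 : C₀ ≤ max (max C₀ (max C 0 * max C₁ 0 * (1 / c) ^ k)) 0 :=
          (le_max_left _ _).trans (le_max_left _ _)
        exact h1.trans (h4.trans
          (le_mul_of_one_le_right (le_max_right _ _) (one_le_pow₀ (by linarith))))
      · have hlog : 0 ≤ Real.log ‖x‖ := Real.log_nonneg hx.le
        have hek : Real.exp ((k : ℝ) * Real.log ‖x‖) = ‖x‖ ^ k := by
          rw [Real.exp_nat_mul, Real.exp_log (by linarith)]
        have h2 : ∑ a', |Y (Real.log ‖x‖) a'| ≤ max C₁ 0 * ‖x‖ ^ k := by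
          rw [← hek]
          exact (hC₁ _ hlog).trans (mul_le_mul_of_nonneg_right (le_max_left _ _) (Real.exp_pos _).le)
        have h3 : ‖x‖ ^ k ≤ (1 / c) ^ k * (1 + dist' g 0 x) ^ k := by
          rw [← mul_pow]
          refine pow_le_pow_left₀ (norm_nonneg x) ?_ k
          rw [one_div_mul_eq_div, le_div_iff₀ hc]
          linarith [hdist x, mul_comm c ‖x‖]
        calc |u x| ≤ C * ∑ a', |Y (Real.log ‖x‖) a'| := hout x hx.le
          _ ≤ max C 0 * (max C₁ 0 * ((1 / c) ^ k * (1 + dist' g 0 x) ^ k)) := by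
              refine mul_le_mul (le_max_left _ _) ?_ (Finset.sum_nonneg fun _ _ => abs_nonneg _)
                (le_max_right _ _)
              exact h2.trans (mul_le_mul_of_nonneg_left h3 (le_max_right _ _))
          _ = max C 0 * max C₁ 0 * (1 / c) ^ k * (1 + dist' g 0 x) ^ k := by ring
          _ ≤ _ := mul_le_mul_of_nonneg_right ((le_max_right _ _).trans (le_max_left _ _))
              (pow_nonneg (by linarith) k)
    · rw [hin x hx]
      congr 1
      simp [Pi.single_apply]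
  choose u hu hin using main
  let e : {x : (i : Fin S.card) × Fin (d i) // x.2 ∈ sel x.1} → Euc (amb p₀) → ℝ :=
    fun x => u x.1.1 x.1.2 x.2
  have hind : LinearIndependent ℝ e := by
    rw [Fintype.linearIndependent_iff]
    intro f hf
    have hzero' : (∑ x : {x : (i : Fin S.card) × Fin (d i) // x.2 ∈ sel x.1},
        f x • b x.1.1 x.1.2) = 0 := by
      refine eq_zero_of_eval_ball _ fun x hx => ?_
      rw [map_sum]
      have := congrFun hf x
      simp only [Finset.sum_apply, Pi.smul_apply, smul_eq_mul, Pi.zero_apply] at this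
      refine Eq.trans (Finset.sum_congr rfl fun y _ => ?_) this
      rw [MvPolynomial.smul_eval, show e y x = _ from hin y.1.1 y.1.2 y.2 x hx]
    exact Fintype.linearIndependent_iff.1
      ((linearIndependent_levels hl (fun i => (hb i).1) fun i a => ((hb i).2.1 a).1).comp
        (fun x : {x : (i : Fin S.card) × Fin (d i) // x.2 ∈ sel x.1} => x.1)
        Subtype.val_injective) f hzero'
  have hcard : flatCount (amb p₀) k + 1 ≤
      Fintype.card {x : (i : Fin S.card) × Fin (d i) // x.2 ∈ sel x.1} := by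
    refine hcount.trans (le_of_eq ?_)
    rw [Fintype.card_subtype]
    rw [show (Finset.univ.filter fun x : (i : Fin S.card) × Fin (d i) => x.2 ∈ sel x.1) =
      Finset.univ.sigma sel by ext x; simp, Finset.card_sigma]
    simp only [hsel_card]
    rw [← Finset.sum_coe_sort S]
    exact Fintype.sum_equiv S.equivFin _ _ fun x => by simp [l]
  obtain ⟨emb⟩ := Function.Embedding.nonempty_of_card_le
    (α := Fin (flatCount (amb p₀) k + 1)) (by simpa using hcard)
  exact ⟨k, hk, g, hmet, hcomp, hricci hric,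
    e ∘ emb, hind.comp emb emb.injective, fun j => hu _ _ _⟩

/-- The seven modules give the disproof. -/
theorem yau_of_stmts (hG : GeomStmt) (hL : LaplaceStmt) (hP : PolyStmt) (hGen : GenStmt)
    (hPr : ProfileStmt) (hA : AnalysisStmt) (hC : CountStmt) : YauFails :=
  ⟨amb p₀, by simp [amb], yau30_of_stmts hG hL hP hGen hPr hA hC⟩

end

end Vale.Agent.P225
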