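import Vale.Agent.P225.Main.Assembly
import Vale.Agent.P225.Poly.Eig
import Vale.Agent.P225.Profile.Ricci
import Vale.Agent.P225.Geom.Main
import Vale.Agent.P225.Geom.LaplaceMain

/-!
# P225: the statement of the hand-in, with the predicates of `Basic` unfolded
-/

namespace Vale.Agent.P225

open scoped ContDiff

/-- From generation, analysis and counting: a complete metric on `ℝ^30` with nonnegative Ricci
curvature and more harmonic functions of growth at most `k` than Euclidean space. -/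
theorem final_of_stmts (hGen : GenStmt) (hA : AnalysisStmt) (hC : CountStmt) :
    ∃ k : ℕ, 1 ≤ k ∧
      ∃ g : EuclideanSpace ℝ (Fin 30) → Matrix (Fin 30) (Fin 30) ℝ,
        (∀ i j, ContDiff ℝ ∞ fun x => g x i j) ∧ (∀ x, (g x).PosDef) ∧
        (∀ a : ℕ → EuclideanSpace ℝ (Fin 30),
          (∀ ε > 0, ∃ N, ∀ i ≥ N, ∀ j ≥ N, dist' g (a i) (a j) < ε) →
            ∃ x, ∀ ε > 0, ∃ N, ∀ i ≥ N, dist' g (a i) x < ε) ∧
        (∀ (x : EuclideanSpace ℝ (Fin 30)) (v : Fin 30 → ℝ),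
          0 ≤ ∑ i, ∑ j, v i * v j * ricci g x i j) ∧
        ∃ U : Fin ((30 + k - 1).choose k + (30 + k - 2).choose (k - 1) + 1) →
            EuclideanSpace ℝ (Fin 30) → ℝ,
          LinearIndependent ℝ U ∧ ∀ i, ContDiff ℝ ∞ (U i) ∧ (∀ x, laplace g (U i) x = 0) ∧
            ∃ C : ℝ, ∀ x, |U i x| ≤ C * (1 + dist' g 0 x) ^ k := by
  obtain ⟨k, hk, g, ⟨hg, hpd⟩, hc, hr, U, hU, hgr⟩ :=
    yau30_of_stmts geom_ok laplace_ok poly_ok hGen profile_ok hA hC
  exact ⟨k, hk, g, hg, hpd, hc, hr, U, hU, hgr⟩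

end Vale.Agent.P225
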